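import Mathlib

/-!
The key inequality for stencils in window variables (P080, A6), as exact algebra: `W` stands for
the forward convolution of the solution, `m` for the backward one and `Mm` for the backward
convolution of `m`.
-/

namespace Vale.Agent.P080.C1.Stencil

open scoped RealInnerProductSpace

variable {F : Type*} [NormedAddCommGroup F] [InnerProductSpace ℝ F] {ι : Type*} [Fintype ι]

/-- The squared length of a family of offsets. -/
def sqLen (w : ι → ℝ) (d : ι → F) : ℝ := ∑ i, w i * ‖d i‖ ^ 2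

/-- The potential. -/
def potW (W Mm : ℝ → F → ℝ) (w : ι → ℝ) (t : ℝ) (y : F) (η : ι → F) : ℝ :=
  ∑ i, w i * W t (y + η i) - Mm t y

theorem sqLen_shift {w : ι → ℝ} (hw : ∑ i, w i = 1) {c : ι → F} (hc : ∑ i, w i • c i = 0)
    (b : F) : ∑ i, w i * ‖b + c i‖ ^ 2 = ‖b‖ ^ 2 + sqLen w c := by
  have h : ∑ i, w i * ⟪b, c i⟫ = 0 := by
    simp_rw [← real_inner_smul_right]
    rw [← inner_sum, hc, inner_zero_right]
  calc ∑ i, w i * ‖b + c i‖ ^ 2
      = ∑ i, (w i * ‖b‖ ^ 2 + 2 * (w i * ⟪b, c i⟫) + w i * ‖c i‖ ^ 2) :=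
        Finset.sum_congr rfl fun i _ => by rw [norm_add_sq_real]; ring
    _ = ‖b‖ ^ 2 + sqLen w c := by
        rw [Finset.sum_add_distrib, Finset.sum_add_distrib, ← Finset.sum_mul, ← Finset.mul_sum,
          hw, h, sqLen]
        ring

/-- The key inequality. -/
theorem key_window {W m Mm : ℝ → F → ℝ} {s t : ℝ} {y b : F} {w : ι → ℝ} {η a c : ι → F}
    (hs : 0 < s) (hw0 : ∀ i, 0 ≤ w i) (hw : ∑ i, w i = 1) (hc : ∑ i, w i • c i = 0)
    (hW : ∀ i z, 2 * W t (y + η i) ≤ (W (t + s) (y + η i + a i) - ‖a i‖ ^ 2 / (2 * s))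
      + (W (t - s) (y + η i + z) + ‖z‖ ^ 2 / (2 * s)))
    (hMle : ∀ t' y' z, Mm t' y' ≤ m (t' - s) (y' + z) + ‖z‖ ^ 2 / (2 * s))
    (hb : Mm t y = m (t - s) (y + b) + ‖b‖ ^ 2 / (2 * s))
    (hsup : ∀ t' y' z, m (t' + s) (y' + z) - ‖z‖ ^ 2 / (2 * s) + Mm t' y' ≤ 2 * m t' y') :
    2 * potW W Mm w t y η + ‖(∑ i, w i • a i) + b‖ ^ 2 / (4 * s) ≤
      potW W Mm w (t + s) (y + ∑ i, w i • a i) (fun i => η i + (a i - ∑ j, w j • a j))
        - sqLen w (fun i => a i - ∑ j, w j • a j) / (2 * s)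
      + potW W Mm w (t - s) (y + b) (fun i => η i + c i) + sqLen w c / (2 * s) := by
  set v := ∑ i, w i • a i with hv
  have he : ∑ i, w i • (a i - v) = 0 := by
    simp only [smul_sub, Finset.sum_sub_distrib, ← Finset.sum_smul, hw, one_smul, ← hv, sub_self]
  have qa : ∑ i, w i * ‖a i‖ ^ 2 = ‖v‖ ^ 2 + sqLen w (fun i => a i - v) := by
    rw [← sqLen_shift hw he v]
    simp
  have qc := sqLen_shift hw hc b
  set g := (1 / 2 : ℝ) • (v + b) with hg
  have h1 := hMle (t + s) (y + v) (g - v)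
  have h2 := hsup (t - s) (y + b) (g - b)
  rw [show t + s - s = t by ring, show y + v + (g - v) = y + g by abel] at h1
  rw [show t - s + s = t by ring, show y + b + (g - b) = y + g by abel] at h2
  have q : ‖g - v‖ ^ 2 / (2 * s) + ‖g - b‖ ^ 2 / (2 * s) + ‖v + b‖ ^ 2 / (4 * s) =
      ‖v‖ ^ 2 / (2 * s) + ‖b‖ ^ 2 / (2 * s) := by
    rw [show g - v = (1 / 2 : ℝ) • (b - v) by rw [hg]; module,
      show g - b = (1 / 2 : ℝ) • (v - b) by rw [hg]; module]
    simp only [norm_smul, mul_pow, norm_add_sq_real, norm_sub_sq_real, real_inner_comm v b,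
      Real.norm_eq_abs, sq_abs]
    field_simp
    ring
  have hatom : ∀ i, w i * (2 * W t (y + η i)) ≤ w i * (W (t + s) (y + v + (η i + (a i - v)))
      - ‖a i‖ ^ 2 / (2 * s) + (W (t - s) (y + b + (η i + c i)) + ‖b + c i‖ ^ 2 / (2 * s))) := by
    intro i
    refine mul_le_mul_of_nonneg_left ?_ (hw0 i)
    have := hW i (b + c i)
    rw [show y + η i + (b + c i) = y + b + (η i + c i) by abel,
      show y + η i + a i = y + v + (η i + (a i - v)) by abel] at this
    exact this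
  have hsum := Finset.sum_le_sum (s := Finset.univ) fun i _ => hatom i
  simp only [mul_add, mul_sub, Finset.sum_add_distrib, Finset.sum_sub_distrib, ← mul_div_assoc,
    ← Finset.sum_div, qa, qc, ← Finset.mul_sum, mul_left_comm _ (2 : ℝ)] at hsum
  simp only [potW]
  rw [add_div, add_div] at hsum
  linarith

end Vale.Agent.P080.C1.Stencil
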