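import Mathlib

/-!
Reduction of a finite stencil to at most `finrank + 2` atoms (P080, A3b): the mass, the mean and
the second moment are kept and the integral of a given function does not decrease.
-/

namespace Vale.Agent.P080.C1.Stencil

open Module Finset

variable {F : Type*} [NormedAddCommGroup F] [InnerProductSpace ℝ F] [FiniteDimensional ℝ F]

/-- The moment vector of an atom. -/
noncomputable def moment (x : F) : ℝ × F × ℝ := (1, x, ‖x‖ ^ 2)

/-- One reduction step. -/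
theorem exists_smaller {ι : Type*} {t : Finset ι} {w : ι → ℝ} {η : ι → F} (f : F → ℝ)
    (hw : ∀ i ∈ t, 0 ≤ w i) (ht : finrank ℝ F + 2 < t.card) :
    ∃ (t' : Finset ι) (w' : ι → ℝ), t' ⊂ t ∧ (∀ i ∈ t', 0 ≤ w' i) ∧
      ∑ i ∈ t', w' i • moment (η i) = ∑ i ∈ t, w i • moment (η i) ∧
      ∑ i ∈ t, w i * f (η i) ≤ ∑ i ∈ t', w' i * f (η i) := by
  classical
  have hli : ¬ LinearIndependent ℝ (fun i : t => moment (η i)) := fun h => by
    have := h.fintype_card_le_finrank
    rw [Fintype.card_coe, finrank_prod, finrank_prod, finrank_self] at this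
    omega
  obtain ⟨g, hg, ⟨i0, hi0⟩⟩ := Fintype.not_linearIndependent_iff.1 hli
  obtain ⟨c, hc, hc0, hcf⟩ : ∃ c : ι → ℝ, ∑ i ∈ t, c i • moment (η i) = 0 ∧
      (∃ i ∈ t, c i ≠ 0) ∧ 0 ≤ ∑ i ∈ t, c i * f (η i) := by
    let c0 : ι → ℝ := fun i => if h : i ∈ t then g ⟨i, h⟩ else 0
    have e : ∀ i : t, c0 i = g i := fun i => dif_pos i.2
    have h1 : ∑ i ∈ t, c0 i • moment (η i) = 0 := by
      rw [← Finset.sum_coe_sort]
      simpa only [e] using hg
    have h2 : ∃ i ∈ t, c0 i ≠ 0 := ⟨i0, i0.2, by rw [e]; exact hi0⟩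
    rcases le_total 0 (∑ i ∈ t, c0 i * f (η i)) with h | h
    · exact ⟨c0, h1, h2, h⟩
    · obtain ⟨j, hj, hj'⟩ := h2
      refine ⟨-c0, by simp [h1], ⟨j, hj, by simpa using hj'⟩, ?_⟩
      simpa using h
  have hsum : ∑ i ∈ t, c i = 0 := by
    simpa [moment, Prod.fst_sum] using congrArg Prod.fst hc
  have hneg : ∃ i ∈ t, c i < 0 := by
    by_contra hh
    push Not at hh
    obtain ⟨i, hi, hi'⟩ := hc0
    exact hi' ((Finset.sum_eq_zero_iff_of_nonneg hh).1 hsum i hi)
  obtain ⟨j, hj, hmin⟩ := exists_min_image (t.filter fun i => c i < 0) (fun i => w i / -c i)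
    (by
      obtain ⟨i, hi, hi'⟩ := hneg
      exact ⟨i, mem_filter.2 ⟨hi, hi'⟩⟩)
  obtain ⟨hjt, hjc⟩ := mem_filter.1 hj
  set τ := w j / -c j with hτ
  have hτ0 : 0 ≤ τ := div_nonneg (hw j hjt) (by linarith)
  let w' : ι → ℝ := fun i => w i + τ * c i
  have hwj : w' j = 0 := by
    have : -c j ≠ 0 := by linarith
    have h : τ * -c j = w j := div_mul_cancel₀ _ this
    simp only [w']
    linarith
  have hw' : ∀ i ∈ t, 0 ≤ w' i := fun i hi => by
    by_cases hci : c i < 0
    · have := hmin i (mem_filter.2 ⟨hi, hci⟩)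
      rw [le_div_iff₀ (by linarith : 0 < -c i)] at this
      simp only [w']
      linarith
    · exact add_nonneg (hw i hi) (mul_nonneg hτ0 (not_lt.1 hci))
  refine ⟨t.erase j, w', erase_ssubset hjt, fun i hi => hw' i (mem_of_mem_erase hi), ?_, ?_⟩
  · rw [sum_erase _ (by rw [hwj, zero_smul])]
    simp only [w', add_smul, sum_add_distrib, mul_smul, ← smul_sum, hc, smul_zero, add_zero]
  · rw [sum_erase _ (by rw [hwj, zero_mul])]
    simp only [w', add_mul, sum_add_distrib, mul_assoc, ← mul_sum]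
    linarith [mul_nonneg hτ0 hcf]

/-- Every finite stencil is dominated by one with at most `finrank + 2` atoms. -/
theorem exists_few {ι : Type*} (t : Finset ι) (w : ι → ℝ) (η : ι → F) (f : F → ℝ)
    (hw : ∀ i ∈ t, 0 ≤ w i) :
    ∃ (t' : Finset ι) (w' : ι → ℝ), t'.card ≤ finrank ℝ F + 2 ∧ (∀ i ∈ t', 0 ≤ w' i) ∧
      ∑ i ∈ t', w' i • moment (η i) = ∑ i ∈ t, w i • moment (η i) ∧
      ∑ i ∈ t, w i * f (η i) ≤ ∑ i ∈ t', w' i * f (η i) := by
  induction t using Finset.strongInduction generalizing w with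
  | H t ih =>
    by_cases ht : t.card ≤ finrank ℝ F + 2
    · exact ⟨t, w, ht, hw, rfl, le_rfl⟩
    · obtain ⟨t1, w1, h1, h2, h3, h4⟩ := exists_smaller f hw (not_le.1 ht)
      obtain ⟨t', w', a, b, c, d⟩ := ih t1 h1 w1 h2
      exact ⟨t', w', a, b, c.trans h3, h4.trans d⟩

/-- The same with atoms indexed by `Fin (finrank + 2)`. -/
theorem exists_fin {ι : Type*} [Fintype ι] (w : ι → ℝ) (η : ι → F) (f : F → ℝ)
    (hw : ∀ i, 0 ≤ w i) :
    ∃ (w' : Fin (finrank ℝ F + 2) → ℝ) (η' : Fin (finrank ℝ F + 2) → F), (∀ i, 0 ≤ w' i) ∧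
      ∑ i, w' i = ∑ i, w i ∧ ∑ i, w' i • η' i = ∑ i, w i • η i ∧
      ∑ i, w' i * ‖η' i‖ ^ 2 = ∑ i, w i * ‖η i‖ ^ 2 ∧
      ∑ i, w i * f (η i) ≤ ∑ i, w' i * f (η' i) := by
  classical
  obtain ⟨t, v, hc, hv, hm, hf⟩ := exists_few univ w η f fun i _ => hw i
  obtain ⟨e⟩ : Nonempty (t ↪ Fin (finrank ℝ F + 2)) := ⟨t.equivFin.toEmbedding.trans
    (Fin.castLEEmb hc)⟩
  let w' : Fin (finrank ℝ F + 2) → ℝ := Function.extend e (fun i => v i) 0
  let η' : Fin (finrank ℝ F + 2) → F := Function.extend e (fun i => η i) 0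
  have key : ∀ {M : Type} [AddCommGroup M] [Module ℝ M] (g : F → M),
      ∑ k, w' k • g (η' k) = ∑ i ∈ t, v i • g (η i) := fun {M} _ _ g => by
    rw [← Finset.sum_coe_sort t]
    refine (Fintype.sum_of_injective e e.injective _ _ (fun k hk => ?_) fun i => ?_).symm
    · simp only [w']
      rw [Function.extend_apply' _ _ _ (by simpa using hk), Pi.zero_apply, zero_smul]
    · simp only [w', η', e.injective.extend_apply]
  have key' : ∀ g : F → ℝ, ∑ k, w' k * g (η' k) = ∑ i ∈ t, v i * g (η i) := fun g => by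
    simpa only [smul_eq_mul] using key g
  refine ⟨w', η', fun k => ?_, ?_, ?_, ?_, ?_⟩
  · simp only [w']
    by_cases hk : ∃ i, e i = k
    · obtain ⟨i, rfl⟩ := hk
      rw [e.injective.extend_apply]
      exact hv i i.2
    · rw [Function.extend_apply' _ _ _ hk, Pi.zero_apply]
  · have h1 := key' (fun _ => 1)
    simp only [mul_one] at h1
    rw [h1]
    simpa [moment, Prod.fst_sum] using congrArg Prod.fst hm
  · have hx : ∑ k, w' k • η' k = ∑ i ∈ t, v i • η i := by
      rw [← Finset.sum_coe_sort t]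
      refine (Fintype.sum_of_injective e e.injective _ _ (fun k hk => ?_) fun i => ?_).symm
      · simp only [w']
        rw [Function.extend_apply' _ _ _ (by simpa using hk), Pi.zero_apply, zero_smul]
      · simp only [w', η', e.injective.extend_apply]
    rw [hx]
    simpa [moment, Prod.fst_sum, Prod.snd_sum] using congrArg (fun q => q.2.1) hm
  · rw [key' (fun x => ‖x‖ ^ 2)]
    simpa [moment, Prod.snd_sum] using congrArg (fun q => q.2.2) hm
  · rw [key' f]
    exact hf

end Vale.Agent.P080.C1.Stencil
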