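import Mathlib

/-!
The touching lemma (P080, A3d): a function vanishing at the origin whose integral against every
finitely supported probability measure of mean zero is at most zero lies below a linear function.
-/

namespace Vale.Agent.P080.C1.Stencil

open scoped RealInnerProductSpace
open Set

variable {F : Type*} [NormedAddCommGroup F] [InnerProductSpace ℝ F]

/-- The convex hull of the hypograph. -/
def hypoHull (f : F → ℝ) : Set (F × ℝ) := convexHull ℝ {q : F × ℝ | q.2 ≤ f q.1}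

theorem hypoHull_snd_nonpos {f : F → ℝ}
    (h : ∀ (ι : Type) (_ : Fintype ι) (w : ι → ℝ) (z : ι → F), (∀ i, 0 ≤ w i) → ∑ i, w i = 1 →
      ∑ i, w i • z i = 0 → ∑ i, w i * f (z i) ≤ 0)
    {c : ℝ} (hc : ((0 : F), c) ∈ hypoHull f) : c ≤ 0 := by
  obtain ⟨ι, t, w, q, hw0, hw1, hq, hcm⟩ := (convexHull_eq
    ({q : F × ℝ | q.2 ≤ f q.1})).le hc
  rw [Finset.centerMass_eq_of_sum_1 _ _ hw1] at hcm
  have h1 : ∑ i ∈ t, w i • (q i).1 = 0 := by
    have := congrArg Prod.fst hcm
    simpa [Prod.fst_sum] using this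
  have h2 : ∑ i ∈ t, w i * (q i).2 = c := by
    have := congrArg Prod.snd hcm
    simpa [Prod.snd_sum] using this
  let e := t.equivFin
  have := h (Fin t.card) inferInstance (fun i => w (e.symm i)) (fun i => (q (e.symm i)).1)
    (fun i => hw0 _ (e.symm i).2)
    (by rw [e.symm.sum_comp (fun i : t => w i), Finset.sum_coe_sort, hw1])
    (by rw [e.symm.sum_comp (fun i : t => w i • (q i).1),
      Finset.sum_coe_sort t (fun i => w i • (q i).1), h1])
  rw [e.symm.sum_comp (fun i : t => w i * f (q i).1),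
    Finset.sum_coe_sort t (fun i => w i * f (q i).1)] at this
  rw [← h2]
  exact le_trans (Finset.sum_le_sum fun i hi => mul_le_mul_of_nonneg_left (hq i hi) (hw0 i hi)) this

/-- The touching lemma. -/
theorem exists_linear_ge [FiniteDimensional ℝ F] {f : F → ℝ} (h0 : f 0 = 0)
    (h : ∀ (ι : Type) (_ : Fintype ι) (w : ι → ℝ) (z : ι → F), (∀ i, 0 ≤ w i) → ∑ i, w i = 1 →
      ∑ i, w i • z i = 0 → ∑ i, w i * f (z i) ≤ 0) :
    ∃ p : F, ∀ z, f z ≤ ⟪p, z⟫ := by
  have hK : Convex ℝ (hypoHull f) := convex_convexHull ℝ _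
  have hmem : ∀ x, (x, f x) ∈ hypoHull f := fun x => subset_convexHull ℝ _ (le_refl (f x))
  have hbd : ∀ x c, (x, c) ∈ hypoHull f → c ≤ -f (-x) := fun x c hc => by
    have hm := hK hc (hmem (-x)) (by norm_num : (0 : ℝ) ≤ 1 / 2) (by norm_num : (0 : ℝ) ≤ 1 / 2)
      (by norm_num)
    have e : (1 / 2 : ℝ) • (x, c) + (1 / 2 : ℝ) • (-x, f (-x)) = ((0 : F), (c + f (-x)) / 2) := by
      ext
      · simp
      · simp
        ring
    rw [e] at hm
    linarith [hypoHull_snd_nonpos h hm]
  let g : F → ℝ := fun x => sSup {c | (x, c) ∈ hypoHull f}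
  have hne : ∀ x, ({c | (x, c) ∈ hypoHull f}).Nonempty := fun x => ⟨f x, hmem x⟩
  have hab : ∀ x, BddAbove {c | (x, c) ∈ hypoHull f} := fun x => ⟨_, fun c hc => hbd x c hc⟩
  have hfg : ∀ x, f x ≤ g x := fun x => le_csSup (hab x) (hmem x)
  have hg0 : g 0 ≤ 0 := csSup_le (hne 0) fun c hc => hypoHull_snd_nonpos h hc
  have hconc : ConcaveOn ℝ univ g := by
    refine ⟨convex_univ, fun x _ y _ a b ha hb hab' => le_of_forall_pos_le_add fun ε hε => ?_⟩
    obtain ⟨c, hc, hcx⟩ := exists_lt_of_lt_csSup (hne x) (show g x - ε < g x by linarith)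
    obtain ⟨d, hd, hdy⟩ := exists_lt_of_lt_csSup (hne y) (show g y - ε < g y by linarith)
    have hm : (a • x + b • y, a * c + b * d) ∈ hypoHull f := by
      simpa using hK hc hd ha hb hab'
    have h1 : a * c + b * d ≤ g (a • x + b • y) := le_csSup (hab _) hm
    have h2 := mul_le_mul_of_nonneg_left hcx.le ha
    have h3 := mul_le_mul_of_nonneg_left hdy.le hb
    have h4 : a * ε + b * ε = ε := by rw [← add_mul, hab', one_mul]
    simp only [smul_eq_mul]
    linarith
  have hcont : Continuous g := by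
    simpa using hconc.continuousOn isOpen_univ
  let O : Set (F × ℝ) := {q | q.2 < g q.1}
  have hO : IsOpen O := isOpen_lt continuous_snd (hcont.comp continuous_fst)
  have hOc : Convex ℝ O := by
    have := hconc.convex_strict_hypograph
    simpa [O] using this
  have hnot : ((0 : F), (0 : ℝ)) ∉ O := fun hh => by
    have : (0 : ℝ) < g 0 := hh
    linarith
  obtain ⟨φ, hφ⟩ := geometric_hahn_banach_open_point hOc hO hnot
  have hφ0 : φ ((0 : F), (0 : ℝ)) = 0 := map_zero φ
  set α := φ ((0 : F), (1 : ℝ)) with hα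
  have hsplit : ∀ z c, φ (z, c) = φ (z, 0) + c * α := fun z c => by
    rw [hα, ← smul_eq_mul c, ← map_smul, ← map_add]
    congr 1
    simp
  have hαpos : 0 < α := by
    have h1 : ((0 : F), (-1 : ℝ)) ∈ O := by
      show -1 < g 0
      linarith [hfg 0, h0]
    have h2 := hφ _ h1
    rw [hφ0, hsplit 0 (-1), show φ ((0 : F), (0 : ℝ)) = 0 from hφ0] at h2
    linarith
  let ℓ : F →L[ℝ] ℝ := (-α⁻¹) • φ.comp (ContinuousLinearMap.inl ℝ F ℝ)
  refine ⟨(InnerProductSpace.toDual ℝ F).symm ℓ, fun z => ?_⟩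
  rw [InnerProductSpace.toDual_symm_apply]
  refine le_trans (hfg z) (le_of_forall_lt fun c hc => ?_)
  have h2 := hφ (z, c) hc
  rw [hφ0, hsplit] at h2
  simp only [ℓ, smul_apply, ContinuousLinearMap.comp_apply,
    ContinuousLinearMap.inl_apply, smul_eq_mul]
  calc c < -φ (z, 0) / α := by rw [lt_div_iff₀ hαpos]; linarith
    _ = -α⁻¹ * φ (z, 0) := by ring

end Vale.Agent.P080.C1.Stencil
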